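import Vale.Agent.P301.H99.PairSec

/-! P301: dimension 4. There is an exponent `K` such that `L^K` has two independent sections without
common divisor for all line bundles `L`, `c₁(L) ≠ 0`, on irreducible holomorphic symplectic fourfolds
which are preserved by a parabolic automorphism (or nef and isotropic with a closed positive current
with zero Lelong numbers in `c₁(L)`), and two independent sections for all limits of such pairs. -/

open scoped Manifold ContDiff ComplexOrder Topology
open Filter Vale.Agent.P272.K Vale.Agent.P301.H599 Vale.Agent.P301.H450 Vale.Agent.P301.H99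

namespace Vale.Agent.Results.P301.FourfoldKappa

/-- There is `K > 0` with the following two properties.

(1) Let `X` be a compact simply connected Kähler manifold of dimension `4` with a holomorphic
symplectic form generating `H⁰(X, Ω²)`, that is, an irreducible holomorphic symplectic Kähler
fourfold, and `L` a line bundle on `X` with `c₁(L) ≠ 0` such that (`IsPairNZ`): `L` is preserved by a
parabolic automorphism `F`, that is `F^* c₁(L) = c₁(L)` and `(F^* - 1)² [w] = c [curvature of L]`,
`c > 0`, for a Kähler metric `w`; or `L` is nef, `c₁(L)^4 = 0`, and `c₁(L)` contains a closed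
positive current all of whose Lelong numbers are zero. Then `L^K` has two linearly independent
holomorphic sections whose divisors have no common component.

(2) Let the pair `(X, L)` of a compact complex manifold and a line bundle be a limit of pairs
`(Y n, M n)` as in (1) (`IsLimit`): in homeomorphisms `X ≃ Y n`, charts and transition functions of
`(Y n, M n)` converge locally uniformly to charts and transition functions of `(X, L)`. Then `L^K`
has two linearly independent holomorphic sections. -/
theorem result :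
    ∃ K : ℕ, 0 < K ∧
      (∀ (X : Type) [TopologicalSpace X] [T2Space X] [CompactSpace X] [SimplyConnectedSpace X]
        [ChartedSpace (Cm 4) X] [IsManifold 𝓘(ℂ, Cm 4) ω X]
        (ι : Type) (L : LineBundle 4 X ι), IsPairNZ L →
        ∃ f g : ι → X → ℂ, Sec L K f ∧ Sec L K g ∧
          (∀ α β : ℂ, (∀ i x, x ∈ L.U i → α * f i x + β * g i x = 0) → α = 0 ∧ β = 0) ∧
          NoCommonDivisor L f g) ∧
      (∀ (X : Type) [TopologicalSpace X] [T2Space X] [CompactSpace X]
        [ChartedSpace (Cm 4) X] [IsManifold 𝓘(ℂ, Cm 4) ω X]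
        (ι : Type) (L : LineBundle 4 X ι)
        (Y : ℕ → Type) [∀ n, TopologicalSpace (Y n)] [∀ n, T2Space (Y n)]
        [∀ n, CompactSpace (Y n)] [∀ n, SimplyConnectedSpace (Y n)]
        [∀ n, ChartedSpace (Cm 4) (Y n)] [∀ n, IsManifold 𝓘(ℂ, Cm 4) ω (Y n)]
        (κ : ℕ → Type) (M : ∀ n, LineBundle 4 (Y n) (κ n)),
        (∀ n, IsPairNZ (M n)) → IsLimit L Y κ M →
        ∃ f g : ι → X → ℂ, Sec L K f ∧ Sec L K g ∧
          ∀ α β : ℂ, (∀ i x, x ∈ L.U i → α * f i x + β * g i x = 0) → α = 0 ∧ β = 0) := by
  refine ⟨Nat.factorial 50, Nat.factorial_pos _, ?_, ?_⟩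
  · intro X _ _ _ _ _ _ ι L hL
    obtain ⟨f, g, hf, hg, h, h'⟩ := hL.hasMobilePair
    exact ⟨f, g, ⟨hf.holo, hf.change⟩, ⟨hg.holo, hg.change⟩, h, h'⟩
  · intro X _ _ _ _ _ ι L Y _ _ _ _ _ _ κ M hM hlim
    obtain ⟨N, ⟨C⟩⟩ := hlim
    obtain ⟨f, g, hf, hg, h⟩ := C.two_sec (K := Nat.factorial 50) fun n => by
      obtain ⟨f, g, hf, hg, h, -⟩ := (hM n).hasMobilePair
      exact ⟨f, g, ⟨hf.holo, hf.change⟩, ⟨hg.holo, hg.change⟩, h⟩
    exact ⟨f, g, ⟨hf.1, hf.2⟩, ⟨hg.1, hg.2⟩, h⟩

end Vale.Agent.Results.P301.FourfoldKappa
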