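import Vale.Agent.P301.H599.Final

/-! P301: for a line bundle preserved by a parabolic automorphism of an irreducible holomorphic
symplectic manifold, a closed positive current in `c₁(L)` all of whose Lelong numbers vanish. -/

open scoped Manifold ContDiff ComplexOrder Topology
open Filter Vale.Agent.P272.K Vale.Agent.P301.H599

namespace Vale.Agent.Results.P301.ParabolicZeroLelong

/-- Let `X` be a compact connected Kähler manifold with Kähler metric `w` and a holomorphic
symplectic form `s` generating `H⁰(X, Ω²)` (e.g. any irreducible holomorphic symplectic Kähler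
manifold of dimension `d = 2n`), `L` a holomorphic line bundle on `X` with a smooth metric `ρ`, and
`F` an automorphism of `X` which preserves the class `c₁(L)` and satisfies
`(F^* - 1)² [w] = c [curvature of L]` for some `c > 0` (a parabolic automorphism). Then `L` has a
singular Hermitian metric with plurisubharmonic weights `ψ` (that is, a closed positive current in
the class of `L`) such that
* the Lelong numbers of the weights vanish at every point,
* the weights are finite at some point of every nonempty closed set `K` with `F(K) ⊆ K`,
* the curvature current is `F`-invariant. -/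
theorem result :
    ∀ (d : ℕ) (X : Type) [TopologicalSpace X] [T2Space X] [CompactSpace X] [ConnectedSpace X]
      [ChartedSpace (Cm d) X] [IsManifold 𝓘(ℂ, Cm d) ω X]
      (w s : Chart d X → Cm d → Matrix (Fin d) (Fin d) ℂ), IsSymplectic d X w s →
      ∀ (ι : Type) (L : LineBundle d X ι) (ρ : ι → X → ℝ), IsMetric L ρ →
      ∀ (F : Auto d X) (c : ℝ), 0 < c →
      SameClass (pull F (curvature L ρ)) (curvature L ρ) →
      SameClass (fun e z => pull F (pull F w) e z - (2 : ℂ) • pull F w e z + w e z)
        (fun e z => (c : ℂ) • curvature L ρ e z) →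
      ∃ ψ : ι → X → EReal, IsPshMetric L ψ ∧
        (∀ i (e : Chart d X) x, At e x → x ∈ L.U i →
          lelong (fun z => ψ i (e.symm z)) (e x) = 0) ∧
        (∀ K : Set X, IsClosed K → K.Nonempty → (∀ x ∈ K, F x ∈ K) →
          ∃ i, ∃ x ∈ K ∩ L.U i, ψ i x ≠ ⊥) ∧
        ∀ i j x, x ∈ L.U i → F x ∈ L.U j → ∃ p : X → ℝ,
          (∀ᶠ y in 𝓝 x, ψ j (F y) = ψ i y + (p y : EReal)) ∧
          ∀ e : Chart d X, At e x → ∀ᶠ z in 𝓝 (e x),
            ContDiffAt ℝ ∞ (fun y => p (e.symm y)) z ∧ ddc p e z = 0 :=
  mainStatement

end Vale.Agent.Results.P301.ParabolicZeroLelong
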