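import Vale.Agent.P301.H99.T12Sec
import Vale.Agent.P301.H99.LimN

/-! P301, dimensions 4 and 6: if the irreducible holomorphic symplectic manifold `X` of dimension
`2n`, `n = 2, 3`, has a parabolic automorphism preserving the primitive line bundle `L` and Picard
rank two, then `L` itself has `n` algebraically independent sections, two by two without common
divisor; and `h⁰(X, L^m) ≥ binom(m + n - 1, n - 1)` for all `m` if `(X, L)` is a limit of such
pairs. -/

open scoped Manifold ContDiff ComplexOrder Topology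
open Filter Vale.Agent.P272.K Vale.Agent.P301.H599 Vale.Agent.P301.H99

namespace Vale.Agent.Results.P301.SectionsOfL

/-- Let `n = 2` or `n = 3`.

(1) Let `X` be a compact simply connected Kähler manifold of dimension `2n` with a holomorphic
symplectic form generating `H⁰(X, Ω²)`, that is, an irreducible holomorphic symplectic Kähler
manifold, and `L` a line bundle on `X` such that (`IsPairV`): `c₁(L) ≠ 0`; `X` has an automorphism
`F` with `F^* c₁(L) = c₁(L)` and `(F^* - 1)² [w] = c c₁(L)`, `c > 0`, for a Kähler metric `w`, and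
`(F^* - 1) c₁(V) = a c₁(L)`, `a ≠ 0`, for a line bundle `V`; the class of every line bundle on `X` is
a real combination of `c₁(L)` and `c₁(V)`, and an integral multiple of `c₁(L)` if it is a real
multiple of `c₁(L)`. Then `L` has `n` algebraically independent holomorphic sections, any two of them
without common divisor.

(2) Let the pair `(X, L)` of a compact complex manifold of dimension `2n` and a line bundle be a
limit of pairs `(Y k, M k)` as in (1) (`IsLimit`): in homeomorphisms `X ≃ Y k`, charts and transition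
functions of `(Y k, M k)` converge locally uniformly to charts and transition functions of
`(X, L)`. Then `L^m` has at least `binom(m + n - 1, n - 1)` linearly independent holomorphic sections
for every `m ≥ 0`. -/
theorem result (n : ℕ) (hn : n = 2 ∨ n = 3) :
    (∀ (X : Type) [TopologicalSpace X] [T2Space X] [CompactSpace X] [SimplyConnectedSpace X]
      [ChartedSpace (Cm (2 * n)) X] [IsManifold 𝓘(ℂ, Cm (2 * n)) ω X]
      (ι : Type) (L : LineBundle (2 * n) X ι), IsPairV L →
      ∃ f : Fin n → ι → X → ℂ, (∀ k, Sec L 1 (f k)) ∧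
        (∀ j k, j ≠ k → NoCommonDivisor L (f j) (f k)) ∧
        ∀ (m : ℕ) (P : MvPolynomial (Fin n) ℂ), P.IsHomogeneous m →
          (∀ i x, x ∈ L.U i → MvPolynomial.eval (fun k => f k i x) P = 0) → P = 0) ∧
    (∀ (X : Type) [TopologicalSpace X] [T2Space X] [CompactSpace X]
      [ChartedSpace (Cm (2 * n)) X] [IsManifold 𝓘(ℂ, Cm (2 * n)) ω X]
      (ι : Type) (L : LineBundle (2 * n) X ι)
      (Y : ℕ → Type) [∀ k, TopologicalSpace (Y k)] [∀ k, T2Space (Y k)]
      [∀ k, CompactSpace (Y k)] [∀ k, SimplyConnectedSpace (Y k)]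
      [∀ k, ChartedSpace (Cm (2 * n)) (Y k)] [∀ k, IsManifold 𝓘(ℂ, Cm (2 * n)) ω (Y k)]
      (κ : ℕ → Type) (M : ∀ k, LineBundle (2 * n) (Y k) (κ k)),
      (∀ k, IsPairV (M k)) → IsLimit L Y κ M →
      ∀ m : ℕ, ∃ g : Fin ((m + n - 1).choose (n - 1)) → ι → X → ℂ, (∀ a, Sec L m (g a)) ∧
        ∀ c : Fin ((m + n - 1).choose (n - 1)) → ℂ,
          (∀ i x, x ∈ L.U i → ∑ a, c a * g a i x = 0) → c = 0) := by
  refine ⟨?_, ?_⟩
  · intro X _ _ _ _ _ _ ι L hL
    obtain ⟨f, hf, ha, hc⟩ := hL.sections hn
    exact ⟨f, hf, hc, ha⟩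
  · intro X _ _ _ _ _ ι L Y _ _ _ _ _ _ κ M hM hlim m
    obtain ⟨N, ⟨C⟩⟩ := hlim
    exact C.r_sec fun k => (hM k).growth hn m

end Vale.Agent.Results.P301.SectionsOfL
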